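import Vale.Agent.P113.Main

namespace Vale.Agent.Results.P113.HaltingNS

open Set Vale.Agent.P113

theorem result (ν : ℝ) (hν : 0 < ν) (_hc : ComputableReal ν) :
    ∃ (a : T3) (O : Set T3), IsOpen O ∧
      ∃ (comp : Machine × List ℕ → Nat.Partrec.Code)
        (f : Machine → List ℕ → Fin 3 → ℝ → T3 → ℝ) (T₀ : ℝ),
        Computable comp ∧ 0 ≤ T₀ ∧
        (∀ M w, (∀ i, SmoothOn0 (f M w i)) ∧ Computes (comp (M, w)) (f M w)) ∧
        (∀ M, ∃ (P : ℝ) (F : Fin 3 → ℝ → T3 → ℝ), 0 < P ∧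
          ∀ i t x, T₀ ≤ t → F i (t + P) x = F i t x ∧ ∀ w, f M w i t x = F i t x) ∧
        ∀ M w, ∃ (u : Fin 3 → ℝ → T3 → ℝ) (p : ℝ → T3 → ℝ),
          (∀ i, SmoothOn0 (u i)) ∧ SmoothOn0 p ∧
          (∀ T, 0 < T → IsClassical ν (f M w) T u p ∧
            ∀ v q, IsClassical ν (f M w) T v q →
              ∀ t ∈ Icc 0 T, ∀ x, (∀ i, v i t x = u i t x) ∧ q t x = p t x) ∧
          (∃ Y, IsTrajectory u a Y) ∧
          ∀ Y, IsTrajectory u a Y → ((∃ t, 0 ≤ t ∧ proj (Y t) ∈ O) ↔ Halts M w) :=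
  main ν hν

end Vale.Agent.Results.P113.HaltingNS
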